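import Vale.Agent.P106.U.H20.Defs

/-!
# P106 / U / H20 : zooms of rays and boxes (windows, translations, caps)

* `zm p l₀ l` : the ray `l` in the coordinates centred at the ray `l₀`, lengths multiplied by `2^p`, heights by `2^(2p)`.
* `zmB p l₀ B` : the same for boxes; `Bin_zm` exact, `zm_zm` cocycle, `bl_zm` commutation with the time blocks.
* `bl_bl` : time blocks of time blocks.
* `cnr a l t`, `wd a l t`, `tw a t` : window: corner of the cell of the ball of radius `2^-a`, ray and time in the window.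
* `cc p l`, `cp p l` : cap: rounded centre, ray in the cap.
* `LbOk_wd`, `LbOk_cp` : labels of the system are labels of the window / of the cap.
-/

set_option autoImplicit false

namespace Vale.Agent.P106.U

open Vale.Agent.P127 Vale.Agent.P127.Stk Vale.Agent.P127.U Vale.Agent.P106.W Vale.Agent.P106.K
open Vale.Agent.P122.C2 (fn)

@[ext] theorem Ry.ext' {l l' : Ry} (hy : ∀ k, l.y k = l'.y k) (hs : ∀ k, l.s k = l'.s k) (hz : l.z = l'.z) : l = l' := by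
  cases l; cases l'
  simp only [Ry.mk.injEq]
  exact ⟨funext hy, funext hs, hz⟩

/-- the ray `l` in the coordinates centred at the ray `l₀`, lengths multiplied by `2^p`, heights by `2^(2p)` -/
noncomputable def zm (p : ℕ) (l₀ l : Ry) : Ry :=
  ⟨fun k => 2 ^ p * (l.y k - l₀.y k), fun k => 2 ^ p * (l.s k - l₀.s k),
    2 ^ (2 * p) * (l.z + ∑ k, l₀.y k * (l.s k - l₀.s k) - l₀.z)⟩

/-- the box `B` in the coordinates of `zm p l₀` -/
noncomputable def zmB (p : ℕ) (l₀ : Ry) (B : Cbx) : Cbx where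
  θ := B.θ
  u1 := 2 ^ p * B.u1
  u2 := 2 ^ p * B.u2
  κ := B.κ / 2 ^ p
  α := B.α / 2 ^ p
  p := fun k => 2 ^ p * (B.p k - l₀.y k)
  v := fun k => 2 ^ p * (B.v k - l₀.s k)
  ω := 2 ^ (2 * p) * (B.ω + ∑ k, l₀.y k * (B.v k - l₀.s k) - l₀.z)

section

variable (p : ℕ) (l₀ l : Ry) (B : Cbx)

theorem pp (p : ℕ) : (2 : ℝ) ^ (2 * p) = 2 ^ p * 2 ^ p := by rw [← pow_add]; congr 1; ring

@[simp] theorem zm_y (k : Fin 2) : (zm p l₀ l).y k = 2 ^ p * (l.y k - l₀.y k) := rfl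
@[simp] theorem zm_s (k : Fin 2) : (zm p l₀ l).s k = 2 ^ p * (l.s k - l₀.s k) := rfl
@[simp] theorem zm_z : (zm p l₀ l).z = 2 ^ (2 * p) * (l.z + ∑ k, l₀.y k * (l.s k - l₀.s k) - l₀.z) := rfl
@[simp] theorem zmB_u1 : (zmB p l₀ B).u1 = 2 ^ p * B.u1 := rfl
@[simp] theorem zmB_u2 : (zmB p l₀ B).u2 = 2 ^ p * B.u2 := rfl
@[simp] theorem zmB_κ : (zmB p l₀ B).κ = B.κ / 2 ^ p := rfl
@[simp] theorem zmB_α : (zmB p l₀ B).α = B.α / 2 ^ p := rfl

/-- the centre of the box as a ray -/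
def ctr (B : Cbx) : Ry := ⟨B.p, B.v, B.ω⟩

theorem ctr_zmB : ctr (zmB p l₀ B) = zm p l₀ (ctr B) := rfl

/-- height above the centre of a box -/
theorem hz_zm : (zm p l₀ l).z + ∑ k, (zm p l₀ l).y k * ((zm p l₀ l).s k - (zmB p l₀ B).v k) - (zmB p l₀ B).ω =
    2 ^ (2 * p) * (l.z + ∑ k, l.y k * (l.s k - B.v k) - B.ω) := by
  simp only [zm_y, zm_s, zm_z, zmB, Fin.sum_univ_two, pp]
  ring

theorem hz2_zm : (zm p l₀ l).z + ∑ k, (zmB p l₀ B).p k * ((zm p l₀ l).s k - (zmB p l₀ B).v k) - (zmB p l₀ B).ω =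
    2 ^ (2 * p) * (l.z + ∑ k, B.p k * (l.s k - B.v k) - B.ω) := by
  simp only [zm_s, zm_z, zmB, Fin.sum_univ_two, pp]
  ring

theorem g0_zm : fn (zmB p l₀ B).θ ((zm p l₀ l).y - (zmB p l₀ B).p) + (zmB p l₀ B).κ *
      ((zm p l₀ l).z + ∑ k, (zm p l₀ l).y k * ((zm p l₀ l).s k - (zmB p l₀ B).v k) - (zmB p l₀ B).ω) -
        (zmB p l₀ B).α * ∑ k, ((zm p l₀ l).y k - (zmB p l₀ B).p k) ^ 2 =
    2 ^ p * (fn B.θ (l.y - B.p) + B.κ * (l.z + ∑ k, l.y k * (l.s k - B.v k) - B.ω) -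
      B.α * ∑ k, (l.y k - B.p k) ^ 2) := by
  rw [hz_zm]
  have h2 : (2 : ℝ) ^ p ≠ 0 := by positivity
  simp only [zmB, zm_y, fn, Pi.sub_apply, Fin.sum_univ_two, pp]
  field_simp
  ring

theorem g1_zm : fn (zmB p l₀ B).θ ((zm p l₀ l).s - (zmB p l₀ B).v) + (zmB p l₀ B).κ *
      (∑ k, ((zm p l₀ l).s k - (zmB p l₀ B).v k) ^ 2) / 2 + 2 * (zmB p l₀ B).α *
        ((zm p l₀ l).z + ∑ k, (zmB p l₀ B).p k * ((zm p l₀ l).s k - (zmB p l₀ B).v k) - (zmB p l₀ B).ω) =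
    2 ^ p * (fn B.θ (l.s - B.v) + B.κ * (∑ k, (l.s k - B.v k) ^ 2) / 2 +
      2 * B.α * (l.z + ∑ k, B.p k * (l.s k - B.v k) - B.ω)) := by
  rw [hz2_zm]
  have h2 : (2 : ℝ) ^ p ≠ 0 := by positivity
  simp only [zmB, zm_s, fn, Pi.sub_apply, Fin.sum_univ_two, pp]
  field_simp
  ring

/-- **boxes are transported exactly** -/
theorem Bin_zm (c H : ℝ) : Bin c (zmB p l₀ B) (2 ^ (2 * p) * H) (zm p l₀ l) ↔ Bin c B H l := by
  unfold Bin
  rw [g0_zm, g1_zm, hz_zm]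
  have h2 : (0 : ℝ) < 2 ^ p := by positivity
  have h4 : (0 : ℝ) < 2 ^ (2 * p) := by positivity
  have ey : ∀ k, |(zm p l₀ l).y k - (zmB p l₀ B).p k| ≤ c * (zmB p l₀ B).u2 ↔ |l.y k - B.p k| ≤ c * B.u2 := by
    intro k
    have e : (zm p l₀ l).y k - (zmB p l₀ B).p k = 2 ^ p * (l.y k - B.p k) := by
      simp only [zm_y, zmB]; ring
    have e' : c * (zmB p l₀ B).u2 = 2 ^ p * (c * B.u2) := by
      simp only [zmB_u2]; ring
    rw [e, e', abs_mul, abs_of_pos h2]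
    exact mul_le_mul_iff_right₀ h2
  have es : ∀ k, |(zm p l₀ l).s k - (zmB p l₀ B).v k| ≤ c * (zmB p l₀ B).u2 ↔ |l.s k - B.v k| ≤ c * B.u2 := by
    intro k
    have e : (zm p l₀ l).s k - (zmB p l₀ B).v k = 2 ^ p * (l.s k - B.v k) := by
      simp only [zm_s, zmB]; ring
    have e' : c * (zmB p l₀ B).u2 = 2 ^ p * (c * B.u2) := by
      simp only [zmB_u2]; ring
    rw [e, e', abs_mul, abs_of_pos h2]
    exact mul_le_mul_iff_right₀ h2
  have em : max ((zmB p l₀ B).u2 ^ 2) (2 ^ (2 * p) * H) = 2 ^ (2 * p) * max (B.u2 ^ 2) H := by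
    rw [mul_max_of_nonneg _ _ h4.le, zmB_u2, mul_pow, pp, ← sq]
  simp only [ey, es, em, abs_mul, abs_of_pos h2, abs_of_pos h4]
  have e3 : ∀ x : ℝ, 2 ^ (2 * p) * x ≤ c * (2 ^ (2 * p) * max (B.u2 ^ 2) H) ↔ x ≤ c * max (B.u2 ^ 2) H := by
    intro x
    have : c * (2 ^ (2 * p) * max (B.u2 ^ 2) H) = 2 ^ (2 * p) * (c * max (B.u2 ^ 2) H) := by ring
    rw [this]
    exact mul_le_mul_iff_right₀ h4
  have e4 : ∀ x : ℝ, 2 ^ p * x ≤ c * (zmB p l₀ B).u1 ↔ x ≤ c * B.u1 := by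
    intro x
    have : c * (zmB p l₀ B).u1 = 2 ^ p * (c * B.u1) := by simp only [zmB_u1]; ring
    rw [this]
    exact mul_le_mul_iff_right₀ h2
  simp only [e3, e4]

theorem Bin_zm0 (c : ℝ) : Bin c (zmB p l₀ B) 0 (zm p l₀ l) ↔ Bin c B 0 l := by
  have h := Bin_zm p l₀ l B c 0
  rwa [mul_zero] at h

/-- cocycle -/
theorem zm_zm (q : ℕ) (l₁ : Ry) : zm q (zm p l₀ l₁) (zm p l₀ l) = zm (p + q) l₁ l := by
  have e : (2 : ℝ) ^ (p + q) = 2 ^ p * 2 ^ q := pow_add _ _ _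
  apply Ry.ext'
  · intro k
    simp only [zm_y, e]; ring
  · intro k
    simp only [zm_s, e]; ring
  · simp only [zm_y, zm_s, zm_z, Fin.sum_univ_two, pp, e]; ring

theorem zmB_zmB (q : ℕ) (l₁ : Ry) : zmB q (zm p l₀ l₁) (zmB p l₀ B) = zmB (p + q) l₁ B := by
  have e : (2 : ℝ) ^ (p + q) = 2 ^ p * 2 ^ q := pow_add _ _ _
  have h2 : (2 : ℝ) ^ p ≠ 0 := by positivity
  have h3 : (2 : ℝ) ^ q ≠ 0 := by positivity
  simp only [zmB, zm_y, zm_s, zm_z, Fin.sum_univ_two, pp, e, Cbx.mk.injEq, true_and]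
  refine ⟨by ring, by ring, by field_simp, by field_simp, ?_, ?_, by ring⟩
  · funext k; ring
  · funext k; ring

/-- the zoom is injective -/
theorem zm_inj {l l' : Ry} (h : zm p l₀ l = zm p l₀ l') : l = l' := by
  have h2 : (2 : ℝ) ^ p ≠ 0 := by positivity
  have h4 : (2 : ℝ) ^ (2 * p) ≠ 0 := by positivity
  have hy : ∀ k, l.y k = l'.y k := by
    intro k
    have e := congrFun (congrArg Ry.y h) k
    simp only [zm_y] at e
    have := mul_left_cancel₀ h2 e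
    linarith
  have hs : ∀ k, l.s k = l'.s k := by
    intro k
    have e := congrFun (congrArg Ry.s h) k
    simp only [zm_s] at e
    have := mul_left_cancel₀ h2 e
    linarith
  refine Ry.ext' hy hs ?_
  have e := congrArg Ry.z h
  simp only [zm_z, hs] at e
  have := mul_left_cancel₀ h4 e
  linarith

/-- zooms commute with the time blocks -/
theorem bl_zm (a : ℕ) (t : ℝ) : bl a (zm p l₀ l) t = zm p (bl a l₀ t) (bl a l t) := by
  apply Ry.ext'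
  · intro k
    simp only [bl, zm_y, Ry.pos, zm_s]; ring
  · intro k
    simp only [bl, zm_s]
  · simp only [bl, zm_z, zm_s, Ry.pos, Fin.sum_univ_two, pp]; ring

end

/-! ### time blocks -/

/-- the time in the block of length `2^-a` -/
noncomputable def tw (a : ℕ) (t : ℝ) : ℝ := 2 ^ a * (t - qa a t)

theorem tw_eq (a : ℕ) (t : ℝ) : tw a t = 2 ^ a * t - fl1 a t := by
  have h2 : (2 : ℝ) ^ a ≠ 0 := by positivity
  unfold tw qa
  field_simp

theorem tw_nonneg (a : ℕ) (t : ℝ) : 0 ≤ tw a t := by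
  rw [tw_eq]
  have := Int.floor_le ((2 : ℝ) ^ a * t)
  unfold fl1
  linarith

theorem tw_lt (a : ℕ) (t : ℝ) : tw a t < 1 := by
  rw [tw_eq]
  have := Int.lt_floor_add_one ((2 : ℝ) ^ a * t)
  unfold fl1
  linarith

theorem fl1_add (a b : ℕ) (t : ℝ) : fl1 (a + b) t = 2 ^ b * fl1 a t + fl1 b (tw a t) := by
  have e : (2 : ℝ) ^ (a + b) * t = ((2 ^ b * fl1 a t : ℤ) : ℝ) + 2 ^ b * tw a t := by
    rw [tw_eq]
    push_cast
    rw [pow_add]
    ring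
  unfold fl1
  rw [e, Int.floor_intCast_add]
  rfl

theorem qa_add (a b : ℕ) (t : ℝ) : qa (a + b) t = qa a t + qa b (tw a t) / 2 ^ a := by
  have h2 : (2 : ℝ) ^ a ≠ 0 := by positivity
  have h3 : (2 : ℝ) ^ b ≠ 0 := by positivity
  unfold qa
  rw [fl1_add]
  push_cast
  rw [pow_add]
  field_simp

/-- time blocks of time blocks -/
theorem bl_bl (a b : ℕ) (l : Ry) (t : ℝ) : bl b (bl a l t) (tw a t) = bl (a + b) l t := by
  have h2 : (2 : ℝ) ^ a ≠ 0 := by positivity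
  have e : (2 : ℝ) ^ (a + b) = 2 ^ a * 2 ^ b := pow_add _ _ _
  have q := qa_add a b t
  apply Ry.ext'
  · intro k
    simp only [bl, Ry.pos, q, e]
    field_simp
    ring
  · intro k
    simp only [bl]
  · simp only [bl, Ry.pos, q, e]
    field_simp
    ring

theorem fl1_tw (a b : ℕ) (t : ℝ) : fl1 b (tw a t) = fl1 (a + b) t - 2 ^ b * fl1 a t := by
  rw [fl1_add]; ring

/-- the digits of the block are digits of the time -/
theorem fl1_of_add (a b : ℕ) {t t' : ℝ} (h : fl1 (a + b) t = fl1 (a + b) t') : fl1 a t = fl1 a t' := by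
  have h1 := fl1_add a b t
  have h2 := fl1_add a b t'
  have e : ∀ s : ℝ, 0 ≤ fl1 b (tw a s) ∧ fl1 b (tw a s) < 2 ^ b := by
    intro s
    constructor
    · exact Int.floor_nonneg.2 (mul_nonneg (by positivity) (tw_nonneg a s))
    · have h3 : (2 : ℝ) ^ b * tw a s < ((2 ^ b : ℤ) : ℝ) := by
        push_cast
        have := mul_lt_mul_of_pos_left (tw_lt a s) (by positivity : (0 : ℝ) < 2 ^ b)
        linarith
      exact Int.floor_lt.2 h3
  obtain ⟨a1, a2⟩ := e t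
  obtain ⟨b1, b2⟩ := e t'
  have h0 : (0 : ℤ) < 2 ^ b := by positivity
  have h5 : 2 ^ b * fl1 a t + fl1 b (tw a t) = 2 ^ b * fl1 a t' + fl1 b (tw a t') := by rw [← h1, ← h2, h]
  have h6 : (2 ^ b * fl1 a t + fl1 b (tw a t)) / 2 ^ b = fl1 a t := by
    rw [Int.add_comm, Int.add_mul_ediv_left _ _ h0.ne', Int.ediv_eq_zero_of_lt a1 a2, zero_add]
  have h7 : (2 ^ b * fl1 a t' + fl1 b (tw a t')) / 2 ^ b = fl1 a t' := by
    rw [Int.add_comm, Int.add_mul_ediv_left _ _ h0.ne', Int.ediv_eq_zero_of_lt b1 b2, zero_add]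
  rw [← h6, ← h7, h5]

/-! ### windows -/

/-- the cell (position and height at the time `0`) of a ray -/
noncomputable def cl0 (l : Ry) : (Fin 2 → ℤ) × ℤ := (fun k => ⌊l.y k⌋, ⌊l.z + ∑ k, l.y k * l.s k⌋)

/-- the corner of the cell, as a ray of slope `0` -/
noncomputable def cnr (q : (Fin 2 → ℤ) × ℤ) : Ry := ⟨fun k => (q.1 k : ℝ), fun _ => 0, (q.2 : ℝ)⟩

/-- the cell of the ball of radius `2^-a` of the ray at the time `t` -/
noncomputable def cel (a : ℕ) (l : Ry) (t : ℝ) : (Fin 2 → ℤ) × ℤ := cl0 (bl a l t)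

/-- the ray in the window -/
noncomputable def wd (a : ℕ) (l : Ry) (t : ℝ) : Ry := zm 0 (cnr (cel a l t)) (bl a l t)

theorem wd_ok {a : ℕ} {l : Ry} {t : ℝ} (h : RyOk l) : RyOk (wd a l t) := by
  obtain ⟨-, hs, -⟩ := h
  have y0 : ∀ k, 0 ≤ (wd a l t).y k ∧ (wd a l t).y k ≤ 1 := by
    intro k
    have h1 := Int.floor_le ((bl a l t).y k)
    have h2 := Int.lt_floor_add_one ((bl a l t).y k)
    have e : (wd a l t).y k = (bl a l t).y k - (⌊(bl a l t).y k⌋ : ℝ) := by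
      simp only [wd, zm_y, pow_zero, one_mul]
      rfl
    rw [e]
    constructor <;> linarith
  have s0 : ∀ k, (wd a l t).s k = l.s k := by
    intro k
    simp only [wd, zm_s, pow_zero, one_mul]
    show l.s k - 0 = l.s k
    ring
  have z0 : (wd a l t).z + ∑ k, (wd a l t).y k * (wd a l t).s k =
      ((bl a l t).z + ∑ k, (bl a l t).y k * (bl a l t).s k) -
        (⌊(bl a l t).z + ∑ k, (bl a l t).y k * (bl a l t).s k⌋ : ℝ) := by
    simp only [wd, zm_y, zm_s, zm_z, Fin.sum_univ_two, mul_zero, pow_zero, one_mul, cnr, cel, cl0]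
    ring
  have h1 := Int.floor_le ((bl a l t).z + ∑ k, (bl a l t).y k * (bl a l t).s k)
  have h2 := Int.lt_floor_add_one ((bl a l t).z + ∑ k, (bl a l t).y k * (bl a l t).s k)
  refine ⟨fun k => ?_, fun k => ?_, ?_⟩
  · rw [abs_le]
    constructor <;> linarith [(y0 k).1, (y0 k).2]
  · rw [s0]
    exact hs k
  · have hk : ∀ k, |(wd a l t).y k * (wd a l t).s k| ≤ 1 := by
      intro k
      rw [abs_mul, s0]
      have : |(wd a l t).y k| ≤ 1 := abs_le.2 ⟨by linarith [(y0 k).1], (y0 k).2⟩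
      exact mul_le_one₀ this (abs_nonneg _) (hs k)
    rw [Fin.sum_univ_two] at z0
    have g0 := abs_le.1 (hk 0)
    have g1 := abs_le.1 (hk 1)
    rw [abs_le]
    constructor <;> linarith [g0.1, g0.2, g1.1, g1.2]

/-- the corner in the blocks of the window -/
theorem bl_cnr (b : ℕ) (q : (Fin 2 → ℤ) × ℤ) (s : ℝ) : bl b (cnr q) s = cnr (fun k => 2 ^ b * q.1 k, 2 ^ b * q.2) := by
  apply Ry.ext'
  · intro k
    simp only [bl, Ry.pos, cnr]
    push_cast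
    ring
  · intro k
    simp only [bl, cnr]
  · simp only [bl, cnr, Fin.sum_univ_two]
    push_cast
    ring

/-- the box of level `a + b` in the window of level `a` -/
noncomputable def wdB (b : ℕ) (q : (Fin 2 → ℤ) × ℤ) (B : Cbx) : Cbx := zmB 0 (cnr (fun k => 2 ^ b * q.1 k, 2 ^ b * q.2)) B

@[simp] theorem wdB_u1 (b : ℕ) (q : (Fin 2 → ℤ) × ℤ) (B : Cbx) : (wdB b q B).u1 = B.u1 := by simp [wdB]
@[simp] theorem wdB_u2 (b : ℕ) (q : (Fin 2 → ℤ) × ℤ) (B : Cbx) : (wdB b q B).u2 = B.u2 := by simp [wdB]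
@[simp] theorem wdB_κ (b : ℕ) (q : (Fin 2 → ℤ) × ℤ) (B : Cbx) : (wdB b q B).κ = B.κ := by simp [wdB]
@[simp] theorem wdB_α (b : ℕ) (q : (Fin 2 → ℤ) × ℤ) (B : Cbx) : (wdB b q B).α = B.α := by simp [wdB]

theorem bl_wd (a b : ℕ) (l : Ry) (t : ℝ) : bl b (wd a l t) (tw a t) =
    zm 0 (cnr (fun k => 2 ^ b * (cel a l t).1 k, 2 ^ b * (cel a l t).2)) (bl (a + b) l t) := by
  unfold wd
  rw [bl_zm, bl_cnr, bl_bl]

/-- **labels in a window** -/
theorem LbOk_wd {c : ℝ} {L a b : ℕ} (ha : a ≤ L) (B : Cbx) (l : Ry) (t : ℝ) :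
    LbOk c (L - a) b (wdB b (cel a l t) B) (wd a l t) (tw a t) ↔ LbOk c L (a + b) B l t := by
  have key : Bin c (wdB b (cel a l t) B) 0 (bl b (wd a l t) (tw a t)) ↔ Bin c B 0 (bl (a + b) l t) := by
    rw [bl_wd]
    exact Bin_zm0 _ _ _ _ _
  constructor
  · rintro ⟨⟨b', R, h1, h2, h3, h4⟩, h5, h6, h7⟩
    rw [wdB_u2] at h1 h5 h6
    rw [wdB_u1] at h2
    rw [wdB_α] at h5
    rw [wdB_κ] at h6
    exact ⟨⟨b', R, h1, h2, h3, by omega⟩, h5, h6, key.1 h7⟩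
  · rintro ⟨⟨b', R, h1, h2, h3, h4⟩, h5, h6, h7⟩
    refine ⟨⟨b', R, by rw [wdB_u2]; exact h1, by rw [wdB_u1]; exact h2, h3, by omega⟩, ?_, ?_, key.2 h7⟩
    · rw [wdB_u2, wdB_α]; exact h5
    · rw [wdB_u2, wdB_κ]; exact h6

/-- inverse of `wdB` -/
noncomputable def uwB (b : ℕ) (q : (Fin 2 → ℤ) × ℤ) (B : Cbx) : Cbx :=
  wdB b (fun k => -q.1 k, -q.2) B

theorem wdB_uwB (b : ℕ) (q : (Fin 2 → ℤ) × ℤ) (B : Cbx) : wdB b q (uwB b q B) = B := by
  have h : zm 0 (cnr (fun k => 2 ^ b * -q.1 k, 2 ^ b * -q.2)) (cnr (0, 0)) = cnr (fun k => 2 ^ b * q.1 k, 2 ^ b * q.2) := by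
    apply Ry.ext'
    · intro k
      simp only [zm_y, cnr, Pi.zero_apply]
      push_cast
      ring
    · intro k
      simp only [zm_s, cnr]
      ring
    · simp only [zm_z, cnr, Fin.sum_univ_two]
      push_cast
      ring
  show zmB 0 _ (zmB 0 _ B) = B
  rw [← h, zmB_zmB]
  cases B
  simp [zmB, cnr]

theorem uwB_wdB (b : ℕ) (q : (Fin 2 → ℤ) × ℤ) (B : Cbx) : uwB b q (wdB b q B) = B := by
  have h := wdB_uwB b (fun k => -q.1 k, -q.2) B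
  unfold uwB at h ⊢
  simpa using h

/-! ### caps -/

/-- the rounded centre: `p` digits of `y`, `s`, `2p` digits of the adapted coordinate -/
noncomputable def cc (p : ℕ) (l : Ry) : Ry where
  y := fun k => (fl p l.y k : ℝ) / 2 ^ p
  s := fun k => (fl p l.s k : ℝ) / 2 ^ p
  z := (fl1 (2 * p) (l.z + ∑ k, (fl p l.y k : ℝ) / 2 ^ p * (l.s k - (fl p l.s k : ℝ) / 2 ^ p)) : ℝ) / 2 ^ (2 * p)

/-- the ray in the cap -/
noncomputable def cp (p : ℕ) (l : Ry) : Ry := zm p (cc p l) l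

theorem cp_ok (p : ℕ) (l : Ry) : RyOk (cp p l) := by
  have h2 : (2 : ℝ) ^ p ≠ 0 := by positivity
  have h4 : (2 : ℝ) ^ (2 * p) ≠ 0 := by positivity
  have fr : ∀ (m : ℕ) (x : ℝ), |2 ^ m * (x - (⌊(2 : ℝ) ^ m * x⌋ : ℝ) / 2 ^ m)| ≤ 1 := by
    intro m x
    have h1 := Int.floor_le ((2 : ℝ) ^ m * x)
    have h3 := Int.lt_floor_add_one ((2 : ℝ) ^ m * x)
    have e : 2 ^ m * (x - (⌊(2 : ℝ) ^ m * x⌋ : ℝ) / 2 ^ m) = 2 ^ m * x - (⌊(2 : ℝ) ^ m * x⌋ : ℝ) := by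
      field_simp
    rw [e, abs_le]
    constructor <;> linarith
  refine ⟨fun k => fr p (l.y k), fun k => fr p (l.s k), ?_⟩
  have h := fr (2 * p) (l.z + ∑ k, (fl p l.y k : ℝ) / 2 ^ p * (l.s k - (fl p l.s k : ℝ) / 2 ^ p))
  have e : (cp p l).z = 2 ^ (2 * p) * ((l.z + ∑ k, (fl p l.y k : ℝ) / 2 ^ p * (l.s k - (fl p l.s k : ℝ) / 2 ^ p)) -
      (⌊(2 : ℝ) ^ (2 * p) * (l.z + ∑ k, (fl p l.y k : ℝ) / 2 ^ p * (l.s k - (fl p l.s k : ℝ) / 2 ^ p))⌋ : ℝ) /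
        2 ^ (2 * p)) := rfl
  rw [e]
  linarith

/-- **labels in a cap** -/
theorem LbOk_zm {c : ℝ} {L a p : ℕ} (l₀ : Ry) (B : Cbx) (l : Ry) (t : ℝ)
    (h : LbOk c L a B l t) (hp : ∀ b R : ℕ, B.u2 = (1 / 2 : ℝ) ^ b → B.u1 = (1 / 2 : ℝ) ^ R → p ≤ b ∧ p ≤ R) :
    LbOk c (L - p) a (zmB p (bl a l₀ t) B) (zm p l₀ l) t := by
  obtain ⟨⟨b, R, h1, h2, h3, h4⟩, h5, h6, h7⟩ := h
  obtain ⟨g1, g2⟩ := hp b R h1 h2
  have hpw : ∀ m : ℕ, p ≤ m → (2 : ℝ) ^ p * (1 / 2 : ℝ) ^ m = (1 / 2 : ℝ) ^ (m - p) := by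
    intro m hm
    obtain ⟨x, rfl⟩ := Nat.exists_eq_add_of_le hm
    rw [Nat.add_sub_cancel_left, pow_add, ← mul_assoc, ← mul_pow]
    norm_num
  have hu : ∀ x : ℝ, |x / 2 ^ p| * (2 ^ p * B.u2) = |x| * B.u2 := by
    intro x
    rw [abs_div, abs_of_pos (by positivity : (0 : ℝ) < 2 ^ p)]
    field_simp
  refine ⟨⟨b - p, R - p, ?_, ?_, by omega, by omega⟩, ?_, ?_, ?_⟩
  · rw [zmB_u2, h1, hpw b g1]
  · rw [zmB_u1, h2, hpw R g2]
  · rw [zmB_α, zmB_u2, hu]; exact h5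
  · rw [zmB_κ, zmB_u2, hu]; exact h6
  · rw [bl_zm]
    exact (Bin_zm0 _ _ _ _ _).2 h7

/-- labels of the cap are labels of the system -/
theorem LbOk_of_zm {c : ℝ} {L a p : ℕ} (hpL : p ≤ L) (l₀ : Ry) (B : Cbx) (l : Ry) (t : ℝ)
    (h : LbOk c (L - p) a (zmB p (bl a l₀ t) B) (zm p l₀ l) t) : LbOk c L a B l t := by
  obtain ⟨⟨b, R, h1, h2, h3, h4⟩, h5, h6, h7⟩ := h
  have h2p : (2 : ℝ) ^ p ≠ 0 := by positivity
  have hpw : ∀ m : ℕ, (2 : ℝ) ^ p * (1 / 2 : ℝ) ^ (m + p) = (1 / 2 : ℝ) ^ m := by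
    intro m
    rw [add_comm, pow_add, ← mul_assoc, ← mul_pow]
    norm_num
  have hu : ∀ x : ℝ, |x / 2 ^ p| * (2 ^ p * B.u2) = |x| * B.u2 := by
    intro x
    rw [abs_div, abs_of_pos (by positivity : (0 : ℝ) < 2 ^ p)]
    field_simp
  refine ⟨⟨b + p, R + p, ?_, ?_, by omega, by omega⟩, ?_, ?_, ?_⟩
  · rw [zmB_u2] at h1
    exact mul_left_cancel₀ h2p (by rw [h1, hpw])
  · rw [zmB_u1] at h2
    exact mul_left_cancel₀ h2p (by rw [h2, hpw])
  · rw [zmB_α, zmB_u2, hu] at h5; exact h5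
  · rw [zmB_κ, zmB_u2, hu] at h6; exact h6
  · rw [bl_zm] at h7
    exact (Bin_zm0 _ _ _ _ _).1 h7

end Vale.Agent.P106.U
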