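import Vale.Agent.P106.K.Defs

/-!
# P106 / U / H20 : the class of (LK-conf), finite form (helper776's TEXT S0, note 17402)

* a system : finite law `P`, rays `l` (exact real rays), times `t`, conditioning letter `C`, precision `L`.
* `LbOk c L a B l t` : the real box `B` is a label of level `a` of `(l, t)` : `u2 = 2^-b`, `u1 = 2^-R`, `b ≤ R`, `a + R ≤ L`,
  `|α| u2, |κ| u2 ≤ c`, and the box (class `c`) contains the ray `bl a l t`.
* `val lam P l t C a W = H(l | W, t_a, C) + 3 a + (3 + lam) E b + (1 - lam) E R` (all digits times `log 2`).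
* `X c lam P l t C L a` : supremum of `val` over all extensions of `P` and random labels.
* `Dd P l t C a = a log 2 - H(t_a | l, C)`.
* `JG lam N β` : `X(h) ≤ X(0) + (β + ε) h + K + N D(h)` for all systems and `h ≤ L`.
-/

set_option autoImplicit false

namespace Vale.Agent.P106.U

open Vale.Agent.P127 Vale.Agent.P127.Stk Vale.Agent.P127.U Vale.Agent.P106.W Vale.Agent.P106.K

/-- `B` is a label of level `a` of the ray `l` at the time `t` -/
structure LbOk (c : ℝ) (L a : ℕ) (B : Cbx) (l : Ry) (t : ℝ) : Prop where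
  sh : ∃ b R : ℕ, B.u2 = (1 / 2 : ℝ) ^ b ∧ B.u1 = (1 / 2 : ℝ) ^ R ∧ b ≤ R ∧ a + R ≤ L
  α2 : |B.α| * B.u2 ≤ c
  κ2 : |B.κ| * B.u2 ≤ c
  inn : Bin c B 0 (bl a l t)

section finite

variable {Ω : Type} [Fintype Ω] {γ : Type}

/-- the value of a random label of level `a` -/
noncomputable def val (lam : ℝ) (P : Law Ω) (l : Ω → Ry) (t : Ω → ℝ) (C : Ω → γ) (a : ℕ) (W : Ω → Cbx) : ℝ :=
  Stk.hc P l (fun ω => (W ω, fl1 a (t ω), C ω)) + 3 * a * Real.log 2 -
    P.ex fun ω => (3 + lam) * Real.log (W ω).u2 + (1 - lam) * Real.log (W ω).u1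

/-- the values of all random labels of level `a`, on all extensions of `P` -/
def vSet (c lam : ℝ) (P : Law Ω) (l : Ω → Ry) (t : Ω → ℝ) (C : Ω → γ) (L a : ℕ) : Set ℝ :=
  {v | ∃ (Ω' : Type) (_ : Fintype Ω') (P' : Law Ω') (π : Ω' → Ω) (W : Ω' → Cbx),
    (∀ ω, P'.pr π ω = P.w ω) ∧ (∀ ω, 0 < P'.w ω → LbOk c L a (W ω) (l (π ω)) (t (π ω))) ∧
    v = val lam P' (fun ω => l (π ω)) (fun ω => t (π ω)) (fun ω => C (π ω)) a W}

/-- the functional `X(a)` -/
noncomputable def X (c lam : ℝ) (P : Law Ω) (l : Ω → Ry) (t : Ω → ℝ) (C : Ω → γ) (L a : ℕ) : ℝ :=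
  sSup (vSet c lam P l t C L a)

/-- the deficit of the time -/
noncomputable def Dd (P : Law Ω) (l : Ω → Ry) (t : Ω → ℝ) (C : Ω → γ) (a : ℕ) : ℝ :=
  a * Real.log 2 - Stk.hc P (fun ω => fl1 a (t ω)) (fun ω => (l ω, C ω))

/-- normalised system -/
def SyOk (P : Law Ω) (l : Ω → Ry) (t : Ω → ℝ) : Prop := ∀ ω, 0 < P.w ω → RyOk (l ω) ∧ 0 ≤ t ω ∧ t ω ≤ 1

end finite

/-- **the inequality with price `N`, rate `β`, penalty `lam`, class `c`** -/
def JGc (c lam N β : ℝ) : Prop :=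
  ∀ ε : ℝ, 0 < ε → ∃ K : ℝ, ∀ (Ω : Type) [Fintype Ω] (γ : Type) (P : Law Ω) (l : Ω → Ry) (t : Ω → ℝ) (C : Ω → γ) (L h : ℕ),
    h ≤ L → SyOk P l t →
    X c lam P l t C L h ≤ X c lam P l t C L 0 + (β + ε) * h * Real.log 2 + K + N * Dd P l t C h

/-- the inequality for all classes of boxes -/
def JG (lam N β : ℝ) : Prop := ∀ c : ℝ, 1 ≤ c → JGc c lam N β

/-- **[LK-conf], price `N`, in the class of S0** -/
def StJG (N : ℝ) : Prop := ∀ lam : ℝ, 0 < lam → lam < 1 → JG lam N lam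

end Vale.Agent.P106.U
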